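import Vale.Agent.P251CJ.Dict
import Vale.Agent.P251CA.Crd

/-!
# The dictionary for the pairs `(φ, v)`
-/

open CategoryTheory MonoidalCategory Topology OnePoint Matrix Filter

namespace Vale.Agent.P251CJ

open Vale.Agent.P251.H Vale.Agent.P251CA
open Vale.Agent.P251.G (LC)
open Vale.Agent.P251.G.LC (smash smash_coe_coe smash_infty_left smash_infty_right)

/-- pairs of an isometric embedding and a vector orthogonal to its image -/
abbrev JP (m n : ℕ) : Type :=
  {q : Matrix (Fin n) (Fin m) ℝ × (Fin n → ℝ) // q.1ᵀ * q.1 = 1 ∧ q.1ᵀ *ᵥ q.2 = 0}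

variable {m n p : ℕ}

/-- the affine map -/
def ap (q : JP m n) (x : Fin m → ℝ) : Fin n → ℝ := q.1.1 *ᵥ x + q.1.2

/-- pairs and maps -/
def pj (m n : ℕ) : JP m n ≃ₜ J m n := (jHomeo m n).symm

@[simp] theorem pj_apply (q : JP m n) (x : E m) : (pj m n q).1 x = ap q x := rfl

@[simp] theorem ap_pj_symm (f : J m n) (x : E m) : ap ((pj m n).symm f) x = f.1 x :=
  (J.eq f x).symm

instance : LocallyCompactSpace (JP m n) := (pj m n).isClosedEmbedding.locallyCompactSpace

example : T2Space (OnePoint (JP m n)) := inferInstance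

theorem JP.ext {q r : JP m n} (h : ∀ x, ap q x = ap r x) : q = r :=
  (pj m n).injective (Subtype.ext (funext h))

theorem ap_dot (q : JP m n) (x y : E m) : ap q x ⬝ᵥ ap q y = x ⬝ᵥ y + ap q 0 ⬝ᵥ ap q 0 :=
  J.dot (pj m n q) x y

/-- A map which preserves inner products up to a constant is given by a pair. -/
theorem exists_ap (g : E m → E n) (c : ℝ) (h : ∀ x y, g x ⬝ᵥ g y = x ⬝ᵥ y + c) :
    ∃ q : JP m n, ∀ x, ap q x = g x :=
  ⟨(pj m n).symm ⟨g, IsD.isM ⟨c, h⟩⟩, fun x => ap_pj_symm _ x⟩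

theorem exists_ap_id (m : ℕ) : ∃ q : JP m m, ∀ x, ap q x = x :=
  ⟨(pj m m).symm (J.id m), fun x => ap_pj_symm _ x⟩

theorem exists_ap_comp (q : JP m n) (r : JP n p) : ∃ s : JP m p, ∀ x, ap s x = ap r (ap q x) :=
  ⟨(pj m p).symm ((pj m n q).comp (pj n p r)), fun x => ap_pj_symm _ x⟩

theorem exists_ap_sum {m' n' : ℕ} (q : JP m n) (r : JP m' n') :
    ∃ s : JP (m + m') (n + n'), ∀ x y, ap s (Fin.append x y) = Fin.append (ap q x) (ap r y) :=
  ⟨(pj _ _).symm ((pj m n q).sum (pj m' n' r)), fun x y =>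
    (ap_pj_symm _ _).trans (J.sum_append _ _ x y)⟩

theorem exists_ap_app (m : ℕ) {k : ℕ} (t : E k) :
    ∃ s : JP m (m + k), ∀ x, ap s x = Fin.append x t :=
  ⟨(pj _ _).symm (J.app m t), fun x => ap_pj_symm _ x⟩

theorem exists_ap_pt (v : E n) : ∃ s : JP 0 n, ∀ x, ap s x = v :=
  ⟨(pj _ _).symm (J.pt v), fun x => ap_pj_symm _ x⟩

/-- the Thom spaces -/
def pjO (m n : ℕ) : OnePoint (JP m n) ≃ₜ OnePoint (J m n) := (pj m n).onePointCongr

@[simp] theorem pjO_coe (q : JP m n) : pjO m n (q : OnePoint (JP m n)) = (pj m n q : J m n) := rfl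

@[simp] theorem pjO_infty : pjO m n ∞ = ∞ := rfl

namespace Ch

variable {a b c : Sp0} (d : Ch a m) (d' : Ch b n) (d'' : Ch c p)

/-- the morphism given by a point of the Thom space of pairs -/
def homP (q : OnePoint (JP m n)) : a ⟶ b := hom d d' (pjO m n q)

@[simp] theorem homP_infty : homP d d' ∞ = 0 := hom_infty d d'

theorem app_homP_coe (q : JP m n) (x : a.s) :
    LC.app (homP d d' q).hom (x : OnePoint a.s) = (d'.e.symm (ap q (d.e x)) : b.s) := rfl

theorem homP_bijective : Function.Bijective (homP d d') :=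
  (equiv d d').bijective.comp (pjO m n).bijective

/-- **The dictionary** for pairs. -/
noncomputable def equivP : OnePoint (JP m n) ≃ (a ⟶ b) :=
  Equiv.ofBijective (homP d d') (homP_bijective d d')

@[simp] theorem equivP_apply (q : OnePoint (JP m n)) : equivP d d' q = homP d d' q := rfl

/-- the point of the Thom space of pairs given by a morphism -/
noncomputable def toP (w : a ⟶ b) : OnePoint (JP m n) := (equivP d d').symm w

@[simp] theorem homP_toP (w : a ⟶ b) : homP d d' (toP d d' w) = w :=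
  (equivP d d').apply_symm_apply w

@[simp] theorem toP_homP (q : OnePoint (JP m n)) : toP d d' (homP d d' q) = q :=
  (equivP d d').symm_apply_apply q

@[simp] theorem toP_zero : toP d d' 0 = ∞ := by rw [← homP_infty d d', toP_homP]

theorem homP_eq {w : a ⟶ b} {q : JP m n}
    (h : ∀ x : a.s, ((ap q (d.e x) : E n) : OnePoint (E n)) = d'.o (LC.app w.hom x)) :
    homP d d' q = w := hom_eq d d' h

theorem toP_eq {w : a ⟶ b} {q : JP m n}
    (h : ∀ x : a.s, ((ap q (d.e x) : E n) : OnePoint (E n)) = d'.o (LC.app w.hom x)) :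
    toP d d' w = q := by rw [← homP_eq d d' h, toP_homP]

/-- every morphism is zero or given by a pair -/
theorem zero_or (w : a ⟶ b) : w = 0 ∨ ∃ q : JP m n, homP d d' q = w := by
  obtain ⟨q, rfl⟩ := (homP_bijective d d').2 w
  induction q using OnePoint.rec with
  | infty => exact Or.inl (homP_infty d d')
  | coe q => exact Or.inr ⟨q, rfl⟩

theorem homP_ne_zero (q : JP m n) : homP d d' q ≠ 0 := fun h =>
  OnePoint.coe_ne_infty q ((homP_bijective d d').1 (h.trans (homP_infty d d').symm))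

theorem homP_id {q : JP m m} (h : ∀ x, ap q x = x) : homP d d q = 𝟙 a :=
  homP_eq d d fun x => by rw [h]; rfl

theorem homP_comp {q : JP m n} {r : JP n p} {s : JP m p} (h : ∀ x, ap s x = ap r (ap q x)) :
    homP d d'' s = homP d d' q ≫ homP d' d'' r := by
  refine Eq.trans ?_ (hom_comp d d' d'' _ _)
  have e : pj m p s = (pj m n q).comp (pj n p r) := Subtype.ext (funext h)
  rw [homP, pjO_coe, e]
  rfl

theorem homP_sum {a' b' : Sp0} {m' n' : ℕ} (c₁ : Ch a' m') (c₂ : Ch b' n') {q : JP m n}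
    {r : JP m' n'} {s : JP (m + m') (n + n')}
    (h : ∀ x y, ap s (Fin.append x y) = Fin.append (ap q x) (ap r y)) :
    homP (tens d c₁) (tens d' c₂) s = homP d d' q ⊗ₘ homP c₁ c₂ r := by
  refine Eq.trans ?_ (hom_sum d d' c₁ c₂ _ _)
  have e : pj _ _ s = (pj m n q).sum (pj m' n' r) := Subtype.ext (funext fun z => by
    obtain ⟨x, y, rfl⟩ := exists_append z
    exact (h x y).trans (J.sum_append (pj m n q) (pj m' n' r) x y).symm)
  rw [homP, pjO_coe, e]

theorem homP_pt {q : JP 0 n} {v : E n} (h : ∀ x, ap q x = v) :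
    homP one d' q = Sp0.pt ((d'.e.symm v : b.s) : OnePoint b.s) := by
  refine Eq.trans ?_ (hom_pt d' v)
  have e : pj 0 n q = J.pt v := Subtype.ext (funext h)
  rw [homP, pjO_coe, e]

/-- **Plots are the continuous families.** -/
theorem plot_homP_iff {K : CH} {q : K → OnePoint (JP m n)} :
    Sp0.plot K (fun k => homP d d' (q k)) ↔ Continuous q :=
  (plot_hom_iff d d' (f := fun k => pjO m n (q k))).trans
    (pjO m n).comp_continuous_iff

theorem plot_iffP {K : CH} {w : K → (a ⟶ b)} :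
    Sp0.plot K w ↔ Continuous (fun k => toP d d' (w k)) := by
  rw [← plot_homP_iff d d']
  simp only [homP_toP]

theorem plot_univP : Sp0.plot (CH.of (OnePoint (JP m n))) (homP d d') :=
  (plot_homP_iff d d' (K := CH.of (OnePoint (JP m n)))).mpr continuous_id

end Ch

/-- the coordinates `Sp0.crd` -/
def cr (a : Sp0) : Ch a a.dim := ⟨a.crd, fun x y => (Sp0.ip_crd a x y).symm⟩

theorem cr_e (a : Sp0) : (cr a).e = a.crd := rfl

theorem cr_euc (n : ℕ) : cr (Sp0.euc n) = Ch.euc n := rfl

theorem cr_tensor (a b : Sp0) : cr (a ⊗ b) = Ch.tens (cr a) (cr b) := rfl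

theorem cr_unit : cr (𝟙_ Sp0) = Ch.one := rfl

theorem cr_gen : cr Sp0.gen = Ch.gen := rfl

/-- the morphism of euclidean spaces given by a point of the Thom space -/
abbrev eh (q : OnePoint (JP m n)) : Sp0.euc m ⟶ Sp0.euc n := Ch.homP (Ch.euc m) (Ch.euc n) q

theorem app_eh_coe (q : JP m n) (x : E m) :
    LC.app (eh (q : OnePoint (JP m n))).hom (OnePoint.some (X := E m) x) =
      OnePoint.some (X := E n) (ap q x) := rfl

theorem homP_cr {a b : Sp0} (q : OnePoint (JP a.dim b.dim)) :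
    Ch.homP (cr a) (cr b) q = a.toEuc.hom ≫ eh q ≫ b.toEuc.inv := by
  induction q using OnePoint.rec with
  | infty => rw [Ch.homP_infty, eh, Ch.homP_infty, Limits.zero_comp, Limits.comp_zero]
  | coe q => exact Sp0.app_ext fun _ => rfl

end Vale.Agent.P251CJ
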