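import Vale.Agent.P251CJ.J
import Vale.Agent.P251CA.W0

/-!
# The morphisms of the index category are the Thom spaces `J⁺`
-/

open CategoryTheory MonoidalCategory Topology OnePoint Matrix Filter

namespace Vale.Agent.P251CJ

open Vale.Agent.P251.H Vale.Agent.P251CA
open Vale.Agent.P251.G (LC)
open Vale.Agent.P251.G.LC (smash smash_coe_coe smash_infty_left smash_infty_right)

/-- Isometric coordinates on a word. -/
structure Ch (a : Sp0) (n : ℕ) where
  /-- the coordinates -/
  e : a.s ≃ₜ E n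
  ip : ∀ x y, e x ⬝ᵥ e y = a.ip x y

namespace Ch

variable {a b c : Sp0} {n m p : ℕ}

/-- the tautological coordinates -/
def euc (n : ℕ) : Ch (Sp0.euc n) n := ⟨Homeomorph.refl _, fun _ _ => rfl⟩

/-- the coordinates on the spheres -/
def o (d : Ch a n) : OnePoint a.s ≃ₜ OnePoint (E n) := d.e.onePointCongr

@[simp] theorem o_coe (d : Ch a n) (x : a.s) :
    d.o (x : OnePoint a.s) = (d.e x : E n) := rfl

@[simp] theorem o_infty (d : Ch a n) : d.o ∞ = ∞ := rfl

@[simp] theorem o_symm_coe (d : Ch a n) (x : E n) :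
    d.o.symm (x : OnePoint (E n)) = (d.e.symm x : a.s) := rfl

@[simp] theorem o_symm_infty (d : Ch a n) : d.o.symm ∞ = ∞ := rfl

theorem euc_o (x : OnePoint (E n)) : (euc n).o x = x := by
  induction x using OnePoint.rec <;> rfl

theorem euc_o_symm (x : OnePoint (E n)) : (euc n).o.symm x = x := by
  induction x using OnePoint.rec <;> rfl

/-- the morphism given by a point of the Thom space -/
def hom (d : Ch a n) (d' : Ch b m) (f : OnePoint (J n m)) : a ⟶ b :=
  ⟨LC.Hom.mk ⟨fun x => d'.o.symm (ev f (d.o x)),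
      d'.o.symm.continuous.comp (continuous_const.ev d.o.continuous)⟩
      (by change d'.o.symm (ev f ∞) = ∞; rw [ev_infty_right]; rfl), by
    induction f using OnePoint.rec with
    | infty => exact Or.inl (LC.hom_ext fun _ => rfl)
    | coe f =>
      refine Or.inr ⟨fun x => d'.e.symm (f.1 (d.e x)), f.1 0 ⬝ᵥ f.1 0, fun _ => rfl,
        fun x y => ?_⟩
      rw [← d'.ip, d'.e.apply_symm_apply, d'.e.apply_symm_apply, f.dot, d.ip]⟩

variable (d : Ch a n) (d' : Ch b m) (d'' : Ch c p)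

theorem app_hom (f : OnePoint (J n m)) (x : OnePoint a.s) :
    LC.app (hom d d' f).hom x = d'.o.symm (ev f (d.o x)) := rfl

theorem o_app_hom (f : OnePoint (J n m)) (x : OnePoint a.s) :
    d'.o (LC.app (hom d d' f).hom x) = ev f (d.o x) := d'.o.apply_symm_apply _

theorem app_hom_coe (f : J n m) (x : a.s) :
    LC.app (hom d d' f).hom (x : OnePoint a.s) = (d'.e.symm (f.1 (d.e x)) : b.s) := rfl

@[simp] theorem hom_infty : hom d d' ∞ = 0 := Sp0.hom_ext (LC.hom_ext fun _ => rfl)

theorem hom_injective : Function.Injective (hom d d') := by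
  intro f g h
  refine ev_ext fun x => ?_
  have h1 := o_app_hom d d' f (d.o.symm x)
  have h2 := o_app_hom d d' g (d.o.symm x)
  rw [d.o.apply_symm_apply] at h1 h2
  rw [← h1, ← h2, h]

theorem hom_surjective : Function.Surjective (hom d d') := by
  intro w
  rcases w.aff with h | ⟨g, r, h1, h2⟩
  · exact ⟨∞, (hom_infty d d').trans (Sp0.hom_ext h.symm)⟩
  · refine ⟨((⟨fun x => d'.e (g (d.e.symm x)), IsD.isM ⟨r, fun x y => ?_⟩⟩ : J n m) :
      OnePoint (J n m)), Sp0.hom_ext (LC.hom_ext fun x => ?_)⟩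
    · rw [d'.ip, h2, ← d.ip, d.e.apply_symm_apply, d.e.apply_symm_apply]
    · rw [app_hom_coe, h1]
      change ((d'.e.symm (d'.e (g (d.e.symm (d.e x)))) : b.s) : OnePoint b.s) = _
      rw [d'.e.symm_apply_apply, d.e.symm_apply_apply]

/-- **The dictionary.** -/
noncomputable def equiv : OnePoint (J n m) ≃ (a ⟶ b) :=
  Equiv.ofBijective (hom d d') ⟨hom_injective d d', hom_surjective d d'⟩

@[simp] theorem equiv_apply (f : OnePoint (J n m)) : equiv d d' f = hom d d' f := rfl

/-- the point of the Thom space given by a morphism -/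
noncomputable def toJ (w : a ⟶ b) : OnePoint (J n m) := (equiv d d').symm w

@[simp] theorem hom_toJ (w : a ⟶ b) : hom d d' (toJ d d' w) = w :=
  (equiv d d').apply_symm_apply w

@[simp] theorem toJ_hom (f : OnePoint (J n m)) : toJ d d' (hom d d' f) = f :=
  (equiv d d').symm_apply_apply f

theorem ev_toJ (w : a ⟶ b) (x : OnePoint a.s) :
    ev (toJ d d' w) (d.o x) = d'.o (LC.app w.hom x) := by
  rw [← o_app_hom, hom_toJ]

theorem toJ_eq {w : a ⟶ b} {f : OnePoint (J n m)}
    (h : ∀ x : a.s, ev f (d.e x : E n) = d'.o (LC.app w.hom x)) : toJ d d' w = f := by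
  refine ev_ext fun y => ?_
  obtain ⟨x, rfl⟩ := d.e.surjective y
  exact (ev_toJ d d' w x).trans (h x).symm

theorem hom_eq {w : a ⟶ b} {f : OnePoint (J n m)}
    (h : ∀ x : a.s, ev f (d.e x : E n) = d'.o (LC.app w.hom x)) : hom d d' f = w := by
  rw [← toJ_eq d d' h, hom_toJ]

@[simp] theorem toJ_zero : toJ d d' 0 = ∞ := by rw [← hom_infty d d', toJ_hom]

theorem hom_id : hom d d (J.id n : OnePoint (J n n)) = 𝟙 a :=
  hom_eq d d fun _ => rfl

theorem toJ_id : toJ d d (𝟙 a) = (J.id n : J n n) := toJ_eq d d fun _ => rfl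

theorem hom_comp (f : OnePoint (J n m)) (g : OnePoint (J m p)) :
    hom d d'' (compO f g) = hom d d' f ≫ hom d' d'' g :=
  hom_eq d d'' fun x => by
    rw [Sp0.comp_hom, LC.app_comp, o_app_hom, o_app_hom, ev_compO]
    rfl

theorem toJ_comp (w : a ⟶ b) (v : b ⟶ c) :
    toJ d d'' (w ≫ v) = compO (toJ d d' w) (toJ d' d'' v) := by
  apply hom_injective d d''
  rw [hom_comp d d' d'', hom_toJ, hom_toJ, hom_toJ]

/-- **Plots are the continuous families.** -/
theorem plot_hom_iff {K : CH} {f : K → OnePoint (J n m)} :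
    Sp0.plot K (fun k => hom d d' (f k)) ↔ Continuous f := by
  constructor
  · intro h
    refine continuous_iff.mpr fun y => ?_
    have h1 : Continuous fun k : K => d'.o (LC.app (hom d d' (f k)).hom (d.o.symm y)) :=
      d'.o.continuous.comp (Continuous.comp (f := fun k : K => (k, d.o.symm y)) h
        (continuous_id.prodMk continuous_const))
    refine h1.congr fun k => ?_
    rw [o_app_hom, d.o.apply_symm_apply]
  · intro h
    exact d'.o.symm.continuous.comp
      ((h.comp continuous_fst).ev (d.o.continuous.comp continuous_snd))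

theorem plot_iff {K : CH} {w : K → (a ⟶ b)} :
    Sp0.plot K w ↔ Continuous (fun k => toJ d d' (w k)) := by
  rw [← plot_hom_iff d d']
  simp only [hom_toJ]

/-- One surjective plot. -/
theorem plot_univ : Sp0.plot (CH.of (OnePoint (J n m))) (hom d d') :=
  (plot_hom_iff d d' (K := CH.of (OnePoint (J n m)))).mpr continuous_id

/-- the change of coordinates -/
def chg (d₁ : Ch a n) (d₂ : Ch a m) : J n m :=
  ⟨fun x => d₂.e (d₁.e.symm x), IsD.isM ⟨0, fun x y => by
    rw [d₂.ip, ← d₁.ip, d₁.e.apply_symm_apply, d₁.e.apply_symm_apply, add_zero]⟩⟩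

theorem toJ_id_chg (d₁ : Ch a n) (d₂ : Ch a m) : toJ d₁ d₂ (𝟙 a) = (chg d₁ d₂ : J n m) :=
  toJ_eq d₁ d₂ fun x => by
    change ((d₂.e (d₁.e.symm (d₁.e x)) : E m) : OnePoint (E m)) = _
    rw [d₁.e.symm_apply_apply]
    rfl

/-- Two words with coordinates of the same dimension are isomorphic. -/
def iso (d₁ : Ch a n) (d₂ : Ch b n) : a ≅ b where
  hom := hom d₁ d₂ (J.id n : J n n)
  inv := hom d₂ d₁ (J.id n : J n n)
  hom_inv_id := (hom_comp d₁ d₂ d₁ _ _).symm.trans (hom_id d₁)
  inv_hom_id := (hom_comp d₂ d₁ d₂ _ _).symm.trans (hom_id d₂)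

/-! ### Coordinates on all words -/

/-- on the unit -/
noncomputable def one : Ch (𝟙_ Sp0) 0 :=
  ⟨Homeomorph.homeomorphOfUnique Unit (E 0), fun _ _ => by
    change _ = (0 : ℝ)
    simp [dotProduct]⟩

/-- on the generator -/
def gen : Ch Sp0.gen 1 :=
  ⟨(Homeomorph.funUnique (Fin 1) ℝ).symm, fun x y => by
    change (fun _ : Fin 1 => (show ℝ from x)) ⬝ᵥ (fun _ : Fin 1 => (show ℝ from y)) = _
    rw [dotProduct, Fin.sum_univ_one]
    rfl⟩

/-- on a product -/
def tens : Ch (a ⊗ b) (n + m) :=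
  ⟨(d.e.prodCongr d'.e).trans (Fin.appendHomeomorph (X := ℝ) n m), fun x y => by
    change Fin.append (d.e x.1) (d'.e x.2) ⬝ᵥ Fin.append (d.e y.1) (d'.e y.2) =
      a.ip x.1 y.1 + b.ip x.2 y.2
    rw [dot_append, d.ip, d'.ip]⟩

theorem tens_e (x : a.s) (y : b.s) :
    (tens d d').e ((x, y) : a.s × b.s) = Fin.append (d.e x) (d'.e y) := rfl

/-- on a product, with the first factor in the last coordinates -/
def tens' : Ch (a ⊗ b) (m + n) :=
  ⟨((Homeomorph.prodComm _ _).trans (d'.e.prodCongr d.e)).trans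
    (Fin.appendHomeomorph (X := ℝ) m n), fun x y => by
    change Fin.append (d'.e x.2) (d.e x.1) ⬝ᵥ Fin.append (d'.e y.2) (d.e y.1) =
      a.ip x.1 y.1 + b.ip x.2 y.2
    rw [dot_append, d.ip, d'.ip, add_comm]⟩

theorem tens'_e (x : a.s) (y : b.s) :
    (tens' d d').e ((x, y) : a.s × b.s) = Fin.append (d'.e y) (d.e x) := rfl

theorem hom_sum {a' b' : Sp0} {n' m' : ℕ} (c₁ : Ch a' n') (c₂ : Ch b' m') (f : J n m)
    (g : J n' m') : hom (tens d c₁) (tens d' c₂) (f.sum g : J (n + n') (m + m')) =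
      hom d d' f ⊗ₘ hom c₁ c₂ g :=
  hom_eq _ _ fun x => by
    obtain ⟨x, y⟩ := x
    refine Eq.trans ?_ (congrArg (tens d' c₂).o
      (LC.app_tensorHom_coe (hom d d' f).hom (hom c₁ c₂ g).hom x y).symm)
    rw [app_hom_coe, app_hom_coe, smash_coe_coe, tens_e, ev_coe, J.sum_append]
    refine Eq.trans ?_ (o_coe (tens d' c₂) _).symm
    rw [tens_e, Homeomorph.apply_symm_apply, Homeomorph.apply_symm_apply]

theorem hom_pt (v : E n) : hom one d (J.pt v : J 0 n) = Sp0.pt ((d.e.symm v : a.s) : OnePoint a.s) :=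
  Sp0.hom_ext_one rfl

end Ch

/-- the dimension of a word -/
def dm : Sp0 → ℕ
  | .one => 0
  | .gen => 1
  | .euc n => n
  | .tens a b => dm a + dm b

/-- the standard coordinates on a word -/
noncomputable def co : (a : Sp0) → Ch a (dm a)
  | .one => Ch.one
  | .gen => Ch.gen
  | .euc n => Ch.euc n
  | .tens a b => Ch.tens (co a) (co b)

/-- every word is isomorphic to a euclidean space -/
noncomputable def toE (a : Sp0) : a ≅ Sp0.euc (dm a) := Ch.iso (co a) (Ch.euc _)

theorem exists_surj_plot (a b : Sp0) :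
    ∃ (K : CH) (w : K → (a ⟶ b)), Sp0.plot K w ∧ Function.Surjective w :=
  ⟨_, _, Ch.plot_univ (co a) (co b), Ch.hom_surjective _ _⟩

theorem isClosed_eq_plot {a b : Sp0} {K : CH} {w v : K → (a ⟶ b)} (hw : Sp0.plot K w)
    (hv : Sp0.plot K v) : IsClosed {k | w k = v k} := by
  have h := isClosed_eq ((Ch.plot_iff (co a) (co b)).mp hw) ((Ch.plot_iff (co a) (co b)).mp hv)
  have e : {k | w k = v k} =
      {k | Ch.toJ (co a) (co b) (w k) = Ch.toJ (co a) (co b) (v k)} := by
    ext k
    exact ((Ch.equiv (co a) (co b)).symm.injective.eq_iff).symm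
  rw [e]
  exact h

end Vale.Agent.P251CJ
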