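import Vale.Agent.P251.G.LC
import Mathlib.Topology.Instances.Matrix
import Mathlib.Analysis.Normed.Group.Bounded
import Mathlib.Analysis.Normed.Module.FiniteDimension
import Mathlib.Analysis.Matrix.Normed
import Mathlib.LinearAlgebra.Matrix.DotProduct

/-!
# The spaces of affine isometric embeddings `x ↦ A x + v`, `v` orthogonal to the image of `A`
-/

open Topology OnePoint Matrix Filter

namespace Vale.Agent.P251CJ

open Vale.Agent.P251.G.LC (smash smash_coe_coe smash_infty_left smash_infty_right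
  continuous_smash)

/-- coordinates -/
abbrev E (n : ℕ) : Type := Fin n → ℝ

/-- the matrix form -/
def IsM {n m : ℕ} (f : E n → E m) : Prop :=
  ∃ (A : Matrix (Fin m) (Fin n) ℝ) (v : E m), Aᵀ * A = 1 ∧ Aᵀ *ᵥ v = 0 ∧ ∀ x, f x = A *ᵥ x + v

/-- the form with inner products -/
def IsD {n m : ℕ} (f : E n → E m) : Prop := ∃ c : ℝ, ∀ x y, f x ⬝ᵥ f y = x ⬝ᵥ y + c

variable {n m p : ℕ}

theorem dot_mul (A : Matrix (Fin m) (Fin n) ℝ) (x : E n) (y : E m) :
    (A *ᵥ x) ⬝ᵥ y = x ⬝ᵥ (Aᵀ *ᵥ y) := by
  rw [dotProduct_comm, dotProduct_mulVec, mulVec_transpose, dotProduct_comm]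

theorem dot_aff {A : Matrix (Fin m) (Fin n) ℝ} {v : E m} (hA : Aᵀ * A = 1) (hv : Aᵀ *ᵥ v = 0)
    (x y : E n) : (A *ᵥ x + v) ⬝ᵥ (A *ᵥ y + v) = x ⬝ᵥ y + v ⬝ᵥ v := by
  rw [add_dotProduct, dotProduct_add, dotProduct_add, dot_mul A x (A *ᵥ y), mulVec_mulVec, hA,
    one_mulVec, dot_mul A x v, hv, dotProduct_comm v (A *ᵥ y), dot_mul A y v, hv,
    dotProduct_zero, dotProduct_zero]
  ring

theorem IsM.isD {f : E n → E m} (h : IsM f) : IsD f := by
  obtain ⟨A, v, hA, hv, hf⟩ := h
  exact ⟨v ⬝ᵥ v, fun x y => by rw [hf, hf, dot_aff hA hv]⟩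

/-- the linear part -/
def mat (f : E n → E m) : Matrix (Fin m) (Fin n) ℝ :=
  Matrix.of fun i j => (f (Pi.single j 1) - f 0) i

theorem mat_transpose_mulVec (f : E n → E m) (y : E m) (j : Fin n) :
    ((mat f)ᵀ *ᵥ y) j = (f (Pi.single j 1) - f 0) ⬝ᵥ y := rfl

theorem IsD.spec {f : E n → E m} (h : IsD f) :
    (mat f)ᵀ * mat f = 1 ∧ (mat f)ᵀ *ᵥ f 0 = 0 ∧ ∀ x, f x = mat f *ᵥ x + f 0 := by
  obtain ⟨c, hc⟩ := h
  have h1 : ∀ x y, (f x - f 0) ⬝ᵥ (f y - f 0) = x ⬝ᵥ y := by
    intro x y
    rw [sub_dotProduct, dotProduct_sub, dotProduct_sub, hc, hc, hc, hc]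
    simp
  have hA : (mat f)ᵀ * mat f = 1 := by
    ext i j
    have := h1 (Pi.single i 1) (Pi.single j 1)
    refine Eq.trans this ?_
    rw [single_dotProduct, one_mul, Pi.single_apply, Matrix.one_apply]
  refine ⟨hA, ?_, fun x => ?_⟩
  · funext j
    rw [mat_transpose_mulVec, sub_dotProduct, hc, hc]
    simp
  · have h2 : (mat f)ᵀ *ᵥ (f x - f 0) = x := by
      funext j
      rw [mat_transpose_mulVec, h1, single_dotProduct, one_mul]
    have h3 : (f x - f 0 - mat f *ᵥ x) ⬝ᵥ (f x - f 0 - mat f *ᵥ x) = 0 := by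
      rw [sub_dotProduct, dotProduct_sub (f x - f 0), dotProduct_sub (mat f *ᵥ x), h1,
        dotProduct_comm (f x - f 0) (mat f *ᵥ x), dot_mul, dot_mul, h2, mulVec_mulVec, hA,
        one_mulVec]
      ring
    have h4 := dotProduct_self_eq_zero.mp h3
    rw [sub_eq_zero] at h4
    rw [← h4, sub_add_cancel]

theorem IsD.isM {f : E n → E m} (h : IsD f) : IsM f := ⟨mat f, f 0, h.spec⟩

theorem isM_iff {f : E n → E m} : IsM f ↔ IsD f := ⟨IsM.isD, IsD.isM⟩

/-- The space of the maps `x ↦ A x + v` with the topology of pointwise convergence. -/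
abbrev J (n m : ℕ) : Type := {f : E n → E m // IsM f}

theorem J.dot (f : J n m) (x y : E n) : f.1 x ⬝ᵥ f.1 y = x ⬝ᵥ y + f.1 0 ⬝ᵥ f.1 0 := by
  obtain ⟨c, hc⟩ := f.2.isD
  rw [hc, hc]
  simp

theorem J.eq (f : J n m) (x : E n) : f.1 x = mat f.1 *ᵥ x + f.1 0 := f.2.isD.spec.2.2 x

/-- the pairs `(A, v)` -/
def PSet (n m : ℕ) : Set (Matrix (Fin m) (Fin n) ℝ × E m) :=
  {q | q.1ᵀ * q.1 = 1 ∧ q.1ᵀ *ᵥ q.2 = 0}

theorem isClosed_PSet : IsClosed (PSet n m) :=
  (isClosed_eq (by fun_prop) continuous_const).inter (isClosed_eq (by fun_prop) continuous_const)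

@[fun_prop]
theorem continuous_at (x : E n) : Continuous (fun f : J n m => f.1 x) :=
  (continuous_apply x).comp continuous_subtype_val

theorem continuous_mat : Continuous (fun f : J n m => mat f.1) := by
  refine continuous_matrix fun i j => ?_
  exact ((continuous_apply i).comp (continuous_at _)).sub
    ((continuous_apply i).comp (continuous_at _))

theorem mat_aff (A : Matrix (Fin m) (Fin n) ℝ) (v : E m) : mat (fun x => A *ᵥ x + v) = A := by
  ext i j
  simp [mat]

/-- `J` as a space of pairs -/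
def jHomeo (n m : ℕ) : J n m ≃ₜ PSet n m where
  toFun f := ⟨(mat f.1, f.1 0), f.2.isD.spec.1, f.2.isD.spec.2.1⟩
  invFun q := ⟨fun x => q.1.1 *ᵥ x + q.1.2, q.1.1, q.1.2, q.2.1, q.2.2, fun _ => rfl⟩
  left_inv f := Subtype.ext (funext fun x => (J.eq f x).symm)
  right_inv q := Subtype.ext (Prod.ext (mat_aff _ _) (by simp))
  continuous_toFun := by
    exact Continuous.subtype_mk (continuous_mat.prodMk (continuous_at 0)) _
  continuous_invFun := by
    refine Continuous.subtype_mk (continuous_pi fun x => ?_) _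
    fun_prop

theorem isClosedEmbedding_pair :
    IsClosedEmbedding (fun f : J n m => (mat f.1, f.1 0)) :=
  isClosed_PSet.isClosedEmbedding_subtypeVal.comp (jHomeo n m).isClosedEmbedding

instance : LocallyCompactSpace (J n m) := by
  have : LocallyCompactSpace (Matrix (Fin m) (Fin n) ℝ) :=
    inferInstanceAs (LocallyCompactSpace (Fin m → Fin n → ℝ))
  exact isClosedEmbedding_pair.locallyCompactSpace

theorem continuous_ev : Continuous (fun q : J n m × E n => q.1.1 q.2) := by
  have h : (fun q : J n m × E n => q.1.1 q.2) = fun q => mat q.1.1 *ᵥ q.2 + q.1.1 0 :=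
    funext fun q => J.eq q.1 q.2
  rw [h]
  exact ((continuous_mat.comp continuous_fst).matrix_mulVec continuous_snd).add
    ((continuous_at 0).comp continuous_fst)

theorem abs_le_of_dot {x : E n} {r : ℝ} (h : x ⬝ᵥ x ≤ r) (i : Fin n) : |x i| ≤ 1 + r := by
  have h1 : x i * x i ≤ x ⬝ᵥ x :=
    Finset.single_le_sum (f := fun j => x j * x j) (fun j _ => mul_self_nonneg _)
      (Finset.mem_univ i)
  have h2 : |x i| * |x i| = x i * x i := abs_mul_abs_self _
  nlinarith [abs_nonneg (x i), sq_nonneg (|x i| - 1)]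

theorem dot_nonneg (x : E n) : 0 ≤ x ⬝ᵥ x :=
  Finset.sum_nonneg fun _ _ => mul_self_nonneg _

theorem isCompact_box (ι : Type) (r : ℝ) : IsCompact {x : ι → ℝ | ∀ i, |x i| ≤ r} := by
  have h : {x : ι → ℝ | ∀ i, |x i| ≤ r} = Set.pi Set.univ (fun _ => Set.Icc (-r) r) := by
    ext x
    simp only [Set.mem_ofPred_eq, Set.mem_pi, Set.mem_univ, true_imp_iff, Set.mem_Icc, abs_le]
  rw [h]
  exact isCompact_univ_pi fun _ => isCompact_Icc

theorem isCompact_J (r : ℝ) : IsCompact {f : J n m | ∀ i, |f.1 0 i| ≤ r} := by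
  have h1 : IsCompact {A : Matrix (Fin m) (Fin n) ℝ | ∀ i j, |A i j| ≤ 2} := by
    have h : {A : Fin m → Fin n → ℝ | ∀ i j, |A i j| ≤ 2} =
        Set.pi Set.univ (fun _ => {x : Fin n → ℝ | ∀ j, |x j| ≤ 2}) := by
      ext x
      simp only [Set.mem_ofPred_eq, Set.mem_pi, Set.mem_univ, true_imp_iff]
    change IsCompact {A : Fin m → Fin n → ℝ | ∀ i j, |A i j| ≤ 2}
    rw [h]
    exact isCompact_univ_pi fun _ => isCompact_box _ _
  have h2 := (isClosedEmbedding_pair (n := n)).isCompact_preimage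
    (h1.prod (isCompact_box (Fin m) r))
  refine h2.of_isClosed_subset ?_ ?_
  · have : {f : J n m | ∀ i, |f.1 0 i| ≤ r} = ⋂ i, {f : J n m | |f.1 0 i| ≤ r} := by
      ext f
      simp
    rw [this]
    exact isClosed_iInter fun i =>
      isClosed_le ((continuous_apply i).comp (continuous_at 0)).abs continuous_const
  · intro f hf
    refine ⟨fun i j => ?_, hf⟩
    have h3 : (f.1 (Pi.single j 1) - f.1 0) ⬝ᵥ (f.1 (Pi.single j 1) - f.1 0) = 1 := by
      have := congrFun (congrFun f.2.isD.spec.1 j) j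
      rw [Matrix.one_apply_eq] at this
      exact this
    have := abs_le_of_dot h3.le i
    rw [one_add_one_eq_two] at this
    exact this

theorem tendsto_ev :
    Tendsto (fun q : J n m × E n => q.1.1 q.2) (cocompact _) (cocompact (E m)) := by
  rw [hasBasis_cocompact.tendsto_right_iff]
  intro K hK
  obtain ⟨r, hr⟩ := (hK.image (f := fun y : E m => y ⬝ᵥ y) (by fun_prop)).bddAbove
  have hc := (isCompact_J (n := n) (m := m) (1 + r)).prod (isCompact_box (Fin n) (1 + r))
  filter_upwards [hc.compl_mem_cocompact] with q hq hqK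
  apply hq
  have h1 : q.1.1 q.2 ⬝ᵥ q.1.1 q.2 ≤ r := hr ⟨_, hqK, rfl⟩
  rw [J.dot] at h1
  have h2 := dot_nonneg q.2
  have h3 := dot_nonneg (q.1.1 0)
  exact ⟨abs_le_of_dot (by linarith), abs_le_of_dot (by linarith)⟩

/-- The action of the Thom space `J⁺` on spheres. -/
def ev (f : OnePoint (J n m)) (x : OnePoint (E n)) : OnePoint (E m) :=
  OnePoint.map (fun q : J n m × E n => q.1.1 q.2) (smash f x)

@[simp] theorem ev_coe (f : J n m) (x : E n) :
    ev (f : OnePoint (J n m)) (x : OnePoint (E n)) = (f.1 x : E m) := rfl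

@[simp] theorem ev_infty_left (x : OnePoint (E n)) : ev (∞ : OnePoint (J n m)) x = ∞ := rfl

@[simp] theorem ev_infty_right (f : OnePoint (J n m)) : ev f ∞ = ∞ := by
  rw [ev, smash_infty_right]
  rfl

theorem ev_coe_left (f : J n m) (x : OnePoint (E n)) :
    ev (f : OnePoint (J n m)) x = OnePoint.map f.1 x := by
  induction x using OnePoint.rec <;> rfl

theorem continuous_evO :
    Continuous (fun q : OnePoint (J n m) × OnePoint (E n) => ev q.1 q.2) :=
  (OnePoint.continuous_map continuous_ev (by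
    rw [coclosedCompact_eq_cocompact, coclosedCompact_eq_cocompact]
    exact tendsto_ev)).comp continuous_smash

theorem ev_ext {f g : OnePoint (J n m)} (h : ∀ x : E n, ev f x = ev g x) : f = g := by
  induction f using OnePoint.rec with
  | infty =>
    induction g using OnePoint.rec with
    | infty => rfl
    | coe g => exact absurd (h 0) (OnePoint.infty_ne_coe _)
  | coe f =>
    induction g using OnePoint.rec with
    | infty => exact absurd (h 0) (OnePoint.coe_ne_infty _)
    | coe g =>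
      congr 1
      exact Subtype.ext (funext fun x => OnePoint.coe_injective (h x))

theorem isEmbedding_ev :
    IsEmbedding (fun (f : OnePoint (J n m)) (x : E n) => ev f (x : OnePoint (E n))) :=
  (Continuous.isClosedEmbedding (continuous_pi fun _ =>
    continuous_evO.comp (continuous_id.prodMk continuous_const))
    (fun _ _ h => ev_ext fun x => congrFun h x)).isEmbedding

/-- Continuity of a family in the Thom space may be checked pointwise. -/
theorem continuous_iff {K : Type*} [TopologicalSpace K] {w : K → OnePoint (J n m)} :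
    Continuous w ↔ ∀ x : E n, Continuous (fun k => ev (w k) x) := by
  rw [isEmbedding_ev.continuous_iff, continuous_pi_iff]
  rfl

theorem continuous_iff' {K : Type*} [TopologicalSpace K] {w : K → OnePoint (J n m)} :
    Continuous w ↔ Continuous (fun q : K × OnePoint (E n) => ev (w q.1) q.2) :=
  ⟨fun h => continuous_evO.comp ((h.comp continuous_fst).prodMk continuous_snd),
    fun h => continuous_iff.mpr fun _ => h.comp (continuous_id.prodMk continuous_const)⟩

theorem _root_.Continuous.ev {K : Type*} [TopologicalSpace K] {w : K → OnePoint (J n m)}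
    {x : K → OnePoint (E n)} (hw : Continuous w) (hx : Continuous x) :
    Continuous (fun k => ev (w k) (x k)) := continuous_evO.comp (hw.prodMk hx)

/-! ### Identity, composition, block sum -/

/-- the identity -/
def J.id (n : ℕ) : J n n := ⟨fun x => x, IsD.isM ⟨0, fun _ _ => (add_zero _).symm⟩⟩

/-- the composition, in diagrammatic order -/
def J.comp (f : J n m) (g : J m p) : J n p :=
  ⟨fun x => g.1 (f.1 x), IsD.isM ⟨f.1 0 ⬝ᵥ f.1 0 + g.1 0 ⬝ᵥ g.1 0, fun x y => by
    rw [g.dot, f.dot, add_assoc]⟩⟩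

/-- a vector as a map out of `ℝ⁰` -/
def J.pt (v : E m) : J 0 m := ⟨fun _ => v, IsD.isM ⟨v ⬝ᵥ v, fun x y => by simp [dotProduct]⟩⟩

theorem dot_append {n' : ℕ} (x y : E n) (x' y' : E n') :
    Fin.append x x' ⬝ᵥ Fin.append y y' = x ⬝ᵥ y + x' ⬝ᵥ y' := by
  simp only [dotProduct, Fin.sum_univ_add, Fin.append_left, Fin.append_right]

theorem exists_append {n' : ℕ} (z : E (n + n')) : ∃ (x : E n) (y : E n'), z = Fin.append x y :=
  ⟨fun i => z (Fin.castAdd n' i), fun i => z (Fin.natAdd n i), Fin.append_castAdd_natAdd.symm⟩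

/-- the block sum -/
def J.sum {n' m' : ℕ} (f : J n m) (g : J n' m') : J (n + n') (m + m') :=
  ⟨fun z => Fin.append (f.1 fun i => z (Fin.castAdd n' i)) (g.1 fun i => z (Fin.natAdd n i)),
    IsD.isM ⟨f.1 0 ⬝ᵥ f.1 0 + g.1 0 ⬝ᵥ g.1 0, fun z w => by
      obtain ⟨x, x', rfl⟩ := exists_append z
      obtain ⟨y, y', rfl⟩ := exists_append w
      simp only [Fin.append_left, Fin.append_right]
      rw [dot_append, dot_append, f.dot, g.dot]
      ring⟩⟩

theorem J.sum_append {n' m' : ℕ} (f : J n m) (g : J n' m') (x : E n) (y : E n') :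
    (f.sum g).1 (Fin.append x y) = Fin.append (f.1 x) (g.1 y) := by
  simp only [J.sum, Fin.append_left, Fin.append_right]

/-- the map `x ↦ (x, t)` -/
def J.app (n : ℕ) {k : ℕ} (t : E k) : J n (n + k) :=
  ⟨fun x => Fin.append x t, IsD.isM ⟨t ⬝ᵥ t, fun x y => dot_append x y t t⟩⟩

/-- the composition on Thom spaces -/
def compO (f : OnePoint (J n m)) (g : OnePoint (J m p)) : OnePoint (J n p) :=
  OnePoint.map (fun q : J n m × J m p => q.1.comp q.2) (smash f g)

@[simp] theorem compO_coe (f : J n m) (g : J m p) :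
    compO (f : OnePoint (J n m)) (g : OnePoint (J m p)) = (f.comp g : J n p) := rfl

@[simp] theorem compO_infty_left (g : OnePoint (J m p)) :
    compO (∞ : OnePoint (J n m)) g = ∞ := rfl

@[simp] theorem compO_infty_right (f : OnePoint (J n m)) :
    compO f (∞ : OnePoint (J m p)) = ∞ := by
  rw [compO, smash_infty_right]
  rfl

theorem ev_compO (f : OnePoint (J n m)) (g : OnePoint (J m p)) (x : OnePoint (E n)) :
    ev (compO f g) x = ev g (ev f x) := by
  induction f using OnePoint.rec with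
  | infty => simp
  | coe f =>
    induction g using OnePoint.rec with
    | infty => simp
    | coe g =>
      induction x using OnePoint.rec with
      | infty => simp
      | coe x => rfl

theorem continuous_compO :
    Continuous (fun q : OnePoint (J n m) × OnePoint (J m p) => compO q.1 q.2) := by
  refine continuous_iff.mpr fun x => ?_
  simp only [ev_compO]
  exact continuous_snd.ev (continuous_fst.ev continuous_const)

@[simp] theorem ev_id (x : OnePoint (E n)) : ev (J.id n : OnePoint (J n n)) x = x := by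
  induction x using OnePoint.rec <;> rfl

end Vale.Agent.P251CJ
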